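import Vale.Agent.GroupAlg.LocIndExt

/-!
P194: stable finiteness of group algebras passes through extensions whose kernel is locally
indicable (for example free) or residually a finite p-group.
-/

namespace Vale.Agent.Results.P194.ExtensionStableFinite

universe u v w

theorem result :
    (∀ (K : Type v) [Ring K] (G : Type u) [Group G] (N : Subgroup G) [N.Normal],
      (GroupAlg.LocallyIndicable N ∨ IsFreeGroup N ∨ (IsMulTorsionFree N ∧ ∀ a b : N, a * b = b * a) ∨
        ∃ p : ℕ, p.Prime ∧ CharP K p ∧ GroupAlg.ResiduallyFinitePGroup p N) →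
      IsStablyFiniteRing (MonoidAlgebra K (G ⧸ N)) → IsStablyFiniteRing (MonoidAlgebra K G)) ∧
    (∀ (K : Type w) [DivisionRing K] (G : Type u) [Group G] (N : Subgroup G) [N.Normal],
      (GroupAlg.LocallyIndicable N ∨ IsFreeGroup N ∨ (IsMulTorsionFree N ∧ ∀ a b : N, a * b = b * a)) →
      Group.ResiduallyFinite (G ⧸ N) →
      IsStablyFiniteRing (MonoidAlgebra K G)) := by
  refine ⟨?_, ?_⟩
  · intro K _ G _ N _ hN hQ
    rcases hN with hli | hfree | ⟨htf, hc⟩ | ⟨p, hp, hchar, hres⟩
    · exact GroupAlg.stablyFinite_of_locInd N hli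
    · exact GroupAlg.stablyFinite_of_locInd N GroupAlg.locallyIndicable_of_isFree
    · exact GroupAlg.stablyFinite_of_locInd N (GroupAlg.locallyIndicable_of_comm hc)
    · have : Fact p.Prime := ⟨hp⟩
      exact GroupAlg.stablyFinite_of_idempotent (GroupAlg.psi (QuotientGroup.mk' N))
        fun n e he hmap => GroupAlg.idempotent_eq_zero_of_residualP N hres e he hmap
  · intro K _ G _ N _ hN hQ
    have := GroupAlg.stablyFinite_of_residuallyFinite (D := K) (G ⧸ N)
    rcases hN with hli | hfree | ⟨htf, hc⟩
    · exact GroupAlg.stablyFinite_of_locInd N hli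
    · exact GroupAlg.stablyFinite_of_locInd N GroupAlg.locallyIndicable_of_isFree
    · exact GroupAlg.stablyFinite_of_locInd N (GroupAlg.locallyIndicable_of_comm hc)

end Vale.Agent.Results.P194.ExtensionStableFinite
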