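import Vale.Agent.HNNAlg.Consequences

/-!
P194: group algebras of HNN extensions and amalgamated products of free groups are stably finite.
-/

namespace Vale.Agent.Results.P194.FreeGroupHNN

open Monoid

universe u v

theorem result :
    (∀ (K : Type u) [Field K] (H : Type v) [Group H] [LinearOrder H] [MulLeftStrictMono H]
      [MulRightStrictMono H] (A B : Subgroup H) [IsFreeGroup A] (φ : A ≃* B),
      IsStablyFiniteRing (MonoidAlgebra K (HNNExtension H A B φ))) ∧
    (∀ (K : Type u) [Field K] (H : Type v) [Group H] [IsFreeGroup H] (A B : Subgroup H)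
      (φ : A ≃* B), IsStablyFiniteRing (MonoidAlgebra K (HNNExtension H A B φ))) ∧
    (∀ (K : Type u) [Field K] (G : Bool → Type v) [∀ i, Group (G i)] [∀ i, IsFreeGroup (G i)]
      (C : Type v) [Group C] (φ : ∀ i, C →* G i), (∀ i, Function.Injective (φ i)) →
      IsStablyFiniteRing (MonoidAlgebra K (PushoutI φ))) :=
  ⟨fun K _ H _ _ _ _ A B _ φ => (HNNAlg.main_ordered K H A B φ).2,
    fun K _ H _ _ A B φ => (HNNAlg.main_hnn K H A B φ).2,
    fun K _ G _ _ C _ φ hφ => (HNNAlg.main_amalgam K G C φ hφ).2⟩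

end Vale.Agent.Results.P194.FreeGroupHNN
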